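import Vale.Agent.P092.H407.SynC
import Vale.Agent.P092.H613.SynDef

/-!
P092, Team D, block [D-SYN-P] (helper407): the proof of `H613.SynP`.
-/

namespace Vale.Agent.P092.H407

/-- the partition-of-unity input of SYN -/
theorem synP : Vale.Agent.P092.H613.SynP := by
  intro ε hε
  obtain ⟨r, h0, h1, ι, hι, χ, p, unit, sum, near, few⟩ := cov hε
  refine ⟨r, h0, h1, ⟨⟨ι, hι, χ, p, unit, sum, near, fun n hn => ?_⟩⟩⟩
  have := few n hn
  convert this

end Vale.Agent.P092.H407
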