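import Mathlib

/-!
Lemma S (P092, one simple factor over the reals): incident support implies commutation.

e and n are symmetric three by three matrices of bounded operators which are of rank one
(`e i j * e k l = e i k * e j l`), of trace one, self-adjoint, with `∑ j, e i j * n j k = 0`.
Then all `e i j` commute with all `n k l`.
-/

open scoped BigOperators
open ContinuousLinearMap

namespace Vale.Agent.P092.H407

/-- the sign tensor of three indices -/
def eps (a b c : Fin 3) : ℤ :=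
  if (a, b, c) = (0, 1, 2) ∨ (a, b, c) = (1, 2, 0) ∨ (a, b, c) = (2, 0, 1) then 1
  else if (a, b, c) = (0, 2, 1) ∨ (a, b, c) = (2, 1, 0) ∨ (a, b, c) = (1, 0, 2) then -1 else 0

lemma eps_schouten (p a b r x : Fin 3) :
    eps p a b * (if r = x then 1 else 0) - eps r a b * (if p = x then 1 else 0)
      = - (eps b r p * (if a = x then 1 else 0)) + eps r p a * (if b = x then 1 else 0) := by
  revert p a b r x; decide

lemma eps_swap (p a b : Fin 3) : eps p a b = - eps p b a := by
  revert p a b; decide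

lemma eps_contr (a b c d : Fin 3) :
    ∑ p, eps p a b * eps p c d
      = (if a = c then 1 else 0) * (if b = d then 1 else 0)
        - (if a = d then 1 else 0) * (if b = c then 1 else 0) := by
  revert a b c d; decide

section Ring

variable {A : Type*} [Ring A]

/-- `W e i j X = ∑ ε_{iab} ε_{jcd} e_{ac} X e_{bd}` -/
def W (e : Fin 3 → Fin 3 → A) (i j : Fin 3) (X : A) : A :=
  ∑ a, ∑ b, ∑ c, ∑ d, (eps i a b * eps j c d) • (e a c * X * e b d)

/-- `Ph e X = ∑ e_{kl} X e_{kl}` -/
def Ph (e : Fin 3 → Fin 3 → A) (X : A) : A := ∑ k, ∑ l, e k l * X * e k l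

/-- rank one matrices of trace one -/
structure Rk (e : Fin 3 → Fin 3 → A) : Prop where
  symm : ∀ i j, e i j = e j i
  rk : ∀ i j k l, e i j * e k l = e i k * e j l
  tr : ∑ i, e i i = 1

variable {e n : Fin 3 → Fin 3 → A}

lemma Rk.comm (h : Rk e) (i j k l : Fin 3) : e i j * e k l = e k l * e i j := by
  rw [h.rk k l i j, h.rk i j k l, h.symm k i, h.symm l j]

lemma Rk.idem (h : Rk e) (i k : Fin 3) : ∑ j, e i j * e j k = e i k := by
  have : ∀ j, e i j * e j k = e i k * e j j := fun j => by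
    rw [h.symm j k, h.rk i j k j]
  simp only [this]
  rw [← Finset.mul_sum, h.tr, mul_one]

lemma Rk.sq (h : Rk e) : ∑ k, ∑ l, e k l * e k l = 1 := by
  have : ∀ k, ∑ l, e k l * e k l = e k k := fun k => by
    rw [← h.idem k k]
    exact Finset.sum_congr rfl fun l _ => by rw [h.symm l k]
  rw [Finset.sum_congr rfl fun k _ => this k, h.tr]

/-- additive form of `W` for arbitrary middle entries -/
lemma W_swap₁ (he : Rk e) (hn : Rk n) (h0 : ∀ i k, ∑ j, e i j * n j k = 0)
    (h0' : ∀ i k, ∑ j, n i j * e j k = 0) (m : A) (hm : ∀ i j, m * n i j = n i j * m)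
    (p q r s : Fin 3) : W e p q (n r s * m) = W e r q (n p s * m) := by
  have key : W e p q (n r s * m) - W e r q (n p s * m)
      = ∑ a, ∑ b, ∑ c, ∑ d, ∑ x : Fin 3, ((eps p a b * (if r = x then 1 else 0)
          - eps r a b * (if p = x then 1 else 0)) * eps q c d) • (e a c * (n x s * m) * e b d) := by
    simp only [W, ← Finset.sum_sub_distrib]
    refine Finset.sum_congr rfl fun a _ => Finset.sum_congr rfl fun b _ =>
      Finset.sum_congr rfl fun c _ => Finset.sum_congr rfl fun d _ => ?_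
    simp only [sub_mul, sub_smul, Finset.sum_sub_distrib]
    simp [mul_assoc]
  have z1 : ∀ c b d : Fin 3, ∀ x : A, ∑ a, e a c * (n a s * m) * x = 0 := by
    intro c b d x
    rw [← Finset.sum_mul]
    have : ∑ a, e a c * (n a s * m) = (∑ a, e c a * n a s) * m := by
      rw [Finset.sum_mul]
      exact Finset.sum_congr rfl fun a _ => by rw [he.symm a c, mul_assoc]
    rw [this, h0, zero_mul, zero_mul]
  have z2 : ∀ a c d : Fin 3, ∑ b, e a c * (n b s * m) * e b d = 0 := by
    intro a c d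
    have : ∀ b, e a c * (n b s * m) * e b d = e a c * (m * (n s b * e b d)) := fun b => by
      rw [← hm, hn.symm b s]; simp only [mul_assoc]
    rw [Finset.sum_congr rfl fun b _ => this b, ← Finset.mul_sum, ← Finset.mul_sum, h0', mul_zero,
      mul_zero]
  rw [← sub_eq_zero, key]
  simp only [eps_schouten]
  simp only [add_mul, add_smul, neg_mul, neg_smul, Finset.sum_add_distrib, Finset.sum_neg_distrib]
  have t1 : ∑ a, ∑ b, ∑ c, ∑ d, ∑ x : Fin 3, (eps b r p * (if a = x then 1 else 0) * eps q c d) •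
      (e a c * (n x s * m) * e b d) = 0 := by
    have : ∀ a b c d : Fin 3, ∑ x : Fin 3, (eps b r p * (if a = x then 1 else 0) * eps q c d) •
      (e a c * (n x s * m) * e b d) = (eps b r p * eps q c d) • (e a c * (n a s * m) * e b d) := by
      intro a b c d
      simp [mul_assoc]
    simp only [this]
    rw [Finset.sum_comm]
    refine Finset.sum_eq_zero fun b _ => ?_
    rw [Finset.sum_comm]
    refine Finset.sum_eq_zero fun c _ => ?_
    rw [Finset.sum_comm]
    refine Finset.sum_eq_zero fun d _ => ?_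
    rw [← Finset.smul_sum, z1 c b d, smul_zero]
  have t2 : ∑ a, ∑ b, ∑ c, ∑ d, ∑ x : Fin 3, (eps r p a * (if b = x then 1 else 0) * eps q c d) •
      (e a c * (n x s * m) * e b d) = 0 := by
    have : ∀ a b c d : Fin 3, ∑ x : Fin 3, (eps r p a * (if b = x then 1 else 0) * eps q c d) •
      (e a c * (n x s * m) * e b d) = (eps r p a * eps q c d) • (e a c * (n b s * m) * e b d) := by
      intro a b c d
      simp [mul_assoc]
    simp only [this]
    refine Finset.sum_eq_zero fun a _ => ?_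
    rw [Finset.sum_comm]
    refine Finset.sum_eq_zero fun c _ => ?_
    rw [Finset.sum_comm]
    refine Finset.sum_eq_zero fun d _ => ?_
    rw [← Finset.smul_sum, z2 a c d, smul_zero]
  rw [t1, t2]
  simp

lemma W_symm (he : Rk e) (p q : Fin 3) (X : A) : W e p q X = W e q p X := by
  have : ∀ a b : Fin 3, ∑ c, ∑ d, (eps p a b * eps q c d) • (e a c * X * e b d)
      = ∑ c, ∑ d, (eps q c d * eps p a b) • (e c a * X * e d b) := fun a b =>
    Finset.sum_congr rfl fun c _ => Finset.sum_congr rfl fun d _ => by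
      rw [mul_comm, he.symm a c, he.symm b d]
  simp only [W, this]
  have h1 : ∀ a : Fin 3, ∑ b, ∑ c, ∑ d, (eps q c d * eps p a b) • (e c a * X * e d b)
      = ∑ c, ∑ d, ∑ b, (eps q c d * eps p a b) • (e c a * X * e d b) := fun a => by
    rw [Finset.sum_comm]
    exact Finset.sum_congr rfl fun c _ => Finset.sum_comm
  simp only [h1]
  rw [Finset.sum_comm]
  exact Finset.sum_congr rfl fun c _ => Finset.sum_comm

lemma W_swap₂ (he : Rk e) (hn : Rk n) (h0 : ∀ i k, ∑ j, e i j * n j k = 0)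
    (h0' : ∀ i k, ∑ j, n i j * e j k = 0) (m : A) (hm : ∀ i j, m * n i j = n i j * m)
    (p q r s : Fin 3) : W e p q (n r s * m) = W e p s (n r q * m) := by
  rw [W_symm he, hn.symm r s, W_swap₁ he hn h0 h0' m hm, W_symm he, hn.symm q r]

/-- `∑ W_pp = 1 - Ph` -/
lemma sum_W (he : Rk e) (X : A) : ∑ p, W e p p X = X - Ph e X := by
  have h1 : ∑ p, W e p p X = ∑ a, ∑ b, ∑ c, ∑ d, (∑ p, eps p a b * eps p c d) •
      (e a c * X * e b d) := by
    simp only [W, Finset.sum_smul]
    rw [Finset.sum_comm]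
    refine Finset.sum_congr rfl fun a _ => ?_
    rw [Finset.sum_comm]
    refine Finset.sum_congr rfl fun b _ => ?_
    rw [Finset.sum_comm]
    refine Finset.sum_congr rfl fun c _ => ?_
    rw [Finset.sum_comm]
  rw [h1]
  simp only [eps_contr, sub_smul, Finset.sum_sub_distrib]
  have h2 : ∑ a, ∑ b, ∑ c, ∑ d, ((if a = c then 1 else 0) * (if b = d then 1 else 0) : ℤ) •
      (e a c * X * e b d) = X := by
    have : ∀ a b : Fin 3, ∑ c, ∑ d, ((if a = c then 1 else 0) * (if b = d then 1 else 0) : ℤ) •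
      (e a c * X * e b d) = e a a * X * e b b := by
      intro a b
      simp
    simp only [this, ← Finset.mul_sum, he.tr, mul_one, ← Finset.sum_mul, one_mul]
  have h3 : ∑ a, ∑ b, ∑ c, ∑ d, ((if a = d then 1 else 0) * (if b = c then 1 else 0) : ℤ) •
      (e a c * X * e b d) = Ph e X := by
    have : ∀ a b : Fin 3, ∑ c, ∑ d, ((if a = d then 1 else 0) * (if b = c then 1 else 0) : ℤ) •
      (e a c * X * e b d) = e a b * X * e a b := by
      intro a b
      rw [he.symm a b]
      simp [he.symm b a]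
    simp only [this, Ph]
  rw [h2, h3]

/-- `W_ij (1) = 0` -/
lemma W_one [Algebra ℝ A] (he : Rk e) (i j : Fin 3) : W e i j 1 = 0 := by
  have h1 : W e i j 1 = - W e i j 1 := by
    conv_lhs => rw [W]
    rw [Finset.sum_comm, W, ← Finset.sum_neg_distrib]
    refine Finset.sum_congr rfl fun a _ => ?_
    rw [← Finset.sum_neg_distrib]
    refine Finset.sum_congr rfl fun b _ => ?_
    rw [← Finset.sum_neg_distrib]
    refine Finset.sum_congr rfl fun c _ => ?_
    rw [← Finset.sum_neg_distrib]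
    refine Finset.sum_congr rfl fun d _ => ?_
    rw [eps_swap i b a, mul_one, mul_one, neg_mul, neg_smul, he.rk b c a d, he.symm b a,
      ← he.rk a c b d]
  have h2 : (2 : ℝ) • W e i j 1 = 0 := by
    rw [two_smul]
    nth_rewrite 2 [h1]
    exact add_neg_cancel _
  simpa using h2

/-- the chain `|w|² n_i n_j m = w_i w_j m` -/
lemma sub_Ph (he : Rk e) (hn : Rk n) (h0 : ∀ i k, ∑ j, e i j * n j k = 0)
    (h0' : ∀ i k, ∑ j, n i j * e j k = 0) (m : A) (hm : ∀ i j, m * n i j = n i j * m)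
    (i j : Fin 3) : n i j * m - Ph e (n i j * m) = W e i j m := by
  rw [← sum_W he]
  have h1 : ∀ p, W e p p (n i j * m) = W e i j (n p p * m) := fun p => by
    rw [W_swap₁ he hn h0 h0' m hm, W_swap₂ he hn h0 h0' m hm]
  simp only [h1]
  have h2 : ∑ p, W e i j (n p p * m) = W e i j (∑ p, n p p * m) := by
    simp only [W, Finset.mul_sum, Finset.sum_mul, Finset.smul_sum]
    rw [Finset.sum_comm]
    refine Finset.sum_congr rfl fun a _ => ?_
    rw [Finset.sum_comm]
    refine Finset.sum_congr rfl fun b _ => ?_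
    rw [Finset.sum_comm]
    refine Finset.sum_congr rfl fun c _ => ?_
    rw [Finset.sum_comm]
  rw [h2, ← Finset.sum_mul, hn.tr, one_mul]

lemma Ph_W (he : Rk e) (i j : Fin 3) (X : A) : Ph e (W e i j X) = W e i j (Ph e X) := by
  simp only [Ph, W, Finset.mul_sum, Finset.sum_mul, Finset.smul_sum]
  have hk : ∀ k l a b c d : Fin 3, e k l * ((eps i a b * eps j c d) • (e a c * X * e b d)) * e k l
      = (eps i a b * eps j c d) • (e a c * (e k l * X * e k l) * e b d) := by
    intro k l a b c d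
    rw [mul_smul_comm, smul_mul_assoc]
    congr 1
    rw [show e k l * (e a c * X * e b d) * e k l = (e k l * e a c) * X * (e b d * e k l) by
      simp only [mul_assoc], he.comm k l a c, he.comm b d k l]
    simp only [mul_assoc]
  simp only [hk]
  have c1 : ∀ k : Fin 3, ∑ l, ∑ a, ∑ b, ∑ c, ∑ d, (eps i a b * eps j c d) •
      (e a c * (e k l * X * e k l) * e b d) = ∑ a, ∑ b, ∑ c, ∑ d, ∑ l, (eps i a b * eps j c d) •
      (e a c * (e k l * X * e k l) * e b d) := by
    intro k
    rw [Finset.sum_comm]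
    refine Finset.sum_congr rfl fun a _ => ?_
    rw [Finset.sum_comm]
    refine Finset.sum_congr rfl fun b _ => ?_
    rw [Finset.sum_comm]
    refine Finset.sum_congr rfl fun c _ => ?_
    rw [Finset.sum_comm]
  simp only [c1]
  rw [Finset.sum_comm]
  refine Finset.sum_congr rfl fun a _ => ?_
  rw [Finset.sum_comm]
  refine Finset.sum_congr rfl fun b _ => ?_
  rw [Finset.sum_comm]
  refine Finset.sum_congr rfl fun c _ => ?_
  rw [Finset.sum_comm]

lemma Ph_sub (X Y : A) : Ph e (X - Y) = Ph e X - Ph e Y := by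
  simp only [Ph, mul_sub, sub_mul, Finset.sum_sub_distrib]

lemma Ph_n [Algebra ℝ A] (he : Rk e) (hn : Rk n) (h0 : ∀ i k, ∑ j, e i j * n j k = 0)
    (h0' : ∀ i k, ∑ j, n i j * e j k = 0) (i j : Fin 3) : Ph e (n i j) = n i j := by
  have := sub_Ph he hn h0 h0' 1 (fun i j => by rw [one_mul, mul_one]) i j
  rw [W_one he, mul_one, sub_eq_zero] at this
  exact this.symm

/-- the second order identity -/
lemma Ph_two [Algebra ℝ A] (he : Rk e) (hn : Rk n) (h0 : ∀ i k, ∑ j, e i j * n j k = 0)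
    (h0' : ∀ i k, ∑ j, n i j * e j k = 0) (i j k l : Fin 3) :
    Ph e (n i j * n k l - Ph e (n i j * n k l)) = n i j * n k l - Ph e (n i j * n k l) := by
  rw [sub_Ph he hn h0 h0' (n k l) (fun a b => hn.comm k l a b), Ph_W he, Ph_n he hn h0 h0']

end Ring

section Op

variable {H : Type*} [NormedAddCommGroup H] [InnerProductSpace ℂ H] [CompleteSpace H]

variable {e n : Fin 3 → Fin 3 → (H →L[ℂ] H)}

lemma sum_norm_sq (he : Rk e) (hs : ∀ i j, adjoint (e i j) = e i j) (ξ : H) :
    ∑ k, ∑ l, ‖e k l ξ‖ ^ 2 = ‖ξ‖ ^ 2 := by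
  have h1 : ∀ k l, (‖e k l ξ‖ ^ 2 : ℝ) = (inner ℂ ((e k l * e k l) ξ) ξ : ℂ).re := by
    intro k l
    have : inner ℂ ((e k l * e k l) ξ) ξ = inner ℂ (e k l ξ) (e k l ξ) := by
      rw [ContinuousLinearMap.mul_apply]
      conv_lhs => rw [← hs k l]
      rw [adjoint_inner_left, hs k l]
    rw [this, inner_self_eq_norm_sq_to_K]
    norm_cast
  simp only [h1, ← Complex.re_sum, ← sum_inner]
  have h2 : ∑ k, ∑ l, (e k l * e k l) ξ = ξ := by
    have := congrArg (fun T : H →L[ℂ] H => T ξ) he.sq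
    simpa [ContinuousLinearMap.sum_apply] using this
  rw [h2, inner_self_eq_norm_sq_to_K]
  norm_cast

lemma norm_Ph (he : Rk e) (hs : ∀ i j, adjoint (e i j) = e i j) (X : H →L[ℂ] H) :
    ‖Ph e X‖ ≤ ‖X‖ := by
  refine ContinuousLinearMap.opNorm_le_bound _ (norm_nonneg _) fun ξ => ?_
  have key : ∀ η : H, ‖inner ℂ (Ph e X ξ) η‖ ≤ ‖X‖ * ‖ξ‖ * ‖η‖ := by
    intro η
    have h1 : inner ℂ (Ph e X ξ) η = ∑ p : Fin 3 × Fin 3,
        inner ℂ (X (e p.1 p.2 ξ)) (e p.1 p.2 η) := by
      rw [Fintype.sum_prod_type]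
      simp only [Ph, ContinuousLinearMap.sum_apply, sum_inner]
      refine Finset.sum_congr rfl fun k _ => Finset.sum_congr rfl fun l _ => ?_
      rw [ContinuousLinearMap.mul_apply, ContinuousLinearMap.mul_apply]
      conv_lhs => rw [← hs k l]
      rw [adjoint_inner_left, hs k l]
    have h2 : ‖inner ℂ (Ph e X ξ) η‖ ≤ ‖X‖ * ∑ p : Fin 3 × Fin 3,
        ‖e p.1 p.2 ξ‖ * ‖e p.1 p.2 η‖ := by
      rw [h1, Finset.mul_sum]
      refine (norm_sum_le _ _).trans (Finset.sum_le_sum fun p _ => ?_)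
      refine (norm_inner_le_norm _ _).trans ?_
      rw [← mul_assoc]
      exact mul_le_mul_of_nonneg_right (X.le_opNorm _) (norm_nonneg _)
    have h3 : ∑ p : Fin 3 × Fin 3, ‖e p.1 p.2 ξ‖ * ‖e p.1 p.2 η‖ ≤ ‖ξ‖ * ‖η‖ := by
      have := Real.sum_mul_le_sqrt_mul_sqrt Finset.univ (fun p : Fin 3 × Fin 3 => ‖e p.1 p.2 ξ‖)
        (fun p => ‖e p.1 p.2 η‖)
      rw [Fintype.sum_prod_type (f := fun p : Fin 3 × Fin 3 => ‖e p.1 p.2 ξ‖ ^ 2),
        Fintype.sum_prod_type (f := fun p : Fin 3 × Fin 3 => ‖e p.1 p.2 η‖ ^ 2),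
        sum_norm_sq he hs, sum_norm_sq he hs, Real.sqrt_sq (norm_nonneg _),
        Real.sqrt_sq (norm_nonneg _)] at this
      exact this
    calc ‖inner ℂ (Ph e X ξ) η‖ ≤ ‖X‖ * ∑ p : Fin 3 × Fin 3, ‖e p.1 p.2 ξ‖ * ‖e p.1 p.2 η‖ := h2
      _ ≤ ‖X‖ * (‖ξ‖ * ‖η‖) := mul_le_mul_of_nonneg_left h3 (norm_nonneg _)
      _ = ‖X‖ * ‖ξ‖ * ‖η‖ := by ring
  have h := key (Ph e X ξ)
  rw [inner_self_eq_norm_sq_to_K] at h
  have h' : ‖Ph e X ξ‖ ^ 2 ≤ ‖X‖ * ‖ξ‖ * ‖Ph e X ξ‖ := by
    simpa using h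
  by_cases h0 : ‖Ph e X ξ‖ = 0
  · rw [h0]; positivity
  · have hp : 0 < ‖Ph e X ξ‖ := lt_of_le_of_ne (norm_nonneg _) (Ne.symm h0)
    rw [sq] at h'
    exact le_of_mul_le_mul_right h' hp

/-- a power bounded map with `(1 - Φ)² X = 0` fixes `X` -/
lemma fix_of_two (he : Rk e) (hs : ∀ i j, adjoint (e i j) = e i j) (X : H →L[ℂ] H)
    (h : Ph e (X - Ph e X) = X - Ph e X) : Ph e X = X := by
  set D := X - Ph e X with hD
  have hadd : ∀ Y Z : H →L[ℂ] H, Ph e (Y - Z) = Ph e Y - Ph e Z := fun Y Z => Ph_sub Y Z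
  have hsm : ∀ m : ℕ, Ph e ((m : ℂ) • D) = (m : ℂ) • D := by
    intro m
    have : Ph e ((m : ℂ) • D) = (m : ℂ) • Ph e D := by
      simp only [Ph, Finset.smul_sum, mul_smul_comm, smul_mul_assoc]
    rw [this, h]
  have hit : ∀ m : ℕ, (Ph e)^[m] X = X - (m : ℂ) • D := by
    intro m
    induction m with
    | zero => simp
    | succ m ih =>
      rw [Function.iterate_succ_apply', ih, hadd, hsm]
      have : Ph e X = X - D := by rw [hD]; abel
      rw [this]
      push_cast
      rw [add_smul, one_smul]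
      abel
  have hn : ∀ m : ℕ, ‖(Ph e)^[m] X‖ ≤ ‖X‖ := by
    intro m
    induction m with
    | zero => simp
    | succ m ih =>
      rw [Function.iterate_succ_apply']
      exact (norm_Ph he hs _).trans ih
  have hb : ∀ m : ℕ, (m : ℝ) * ‖D‖ ≤ 2 * ‖X‖ := by
    intro m
    have h1 : (m : ℂ) • D = X - (Ph e)^[m] X := by rw [hit]; abel
    have h2 : ‖(m : ℂ) • D‖ ≤ ‖X‖ + ‖X‖ := by
      rw [h1]
      exact (norm_sub_le _ _).trans (add_le_add le_rfl (hn m))
    rw [norm_smul] at h2
    simpa [two_mul] using h2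
  have hD0 : ‖D‖ = 0 := by
    by_contra hne
    have hp : 0 < ‖D‖ := lt_of_le_of_ne (norm_nonneg _) (Ne.symm hne)
    obtain ⟨m, hm⟩ := exists_nat_gt (2 * ‖X‖ / ‖D‖)
    rw [div_lt_iff₀ hp] at hm
    exact absurd (hb m) (not_le.mpr hm)
  have : X - Ph e X = 0 := norm_eq_zero.mp hD0
  exact (sub_eq_zero.mp this).symm

/-- LEMMA S: orthogonality of the two rank one matrices implies commutation. -/
theorem commute_of_rk (he : Rk e) (hn : Rk n) (hs : ∀ i j, adjoint (e i j) = e i j)
    (hs' : ∀ i j, adjoint (n i j) = n i j) (h0 : ∀ i k, ∑ j, e i j * n j k = 0)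
    (i j k l : Fin 3) : e k l * n i j = n i j * e k l := by
  have h0' : ∀ i k, ∑ j, n i j * e j k = 0 := by
    intro i k
    have := congrArg adjoint (h0 k i)
    rw [map_sum, map_zero] at this
    rw [← this]
    refine Finset.sum_congr rfl fun j _ => ?_
    rw [show adjoint (e k j * n j i) = adjoint (n j i) * adjoint (e k j) from adjoint_comp _ _,
      hs, hs', hn.symm, he.symm]
  have f1 : Ph e (n i j) = n i j := Ph_n he hn h0 h0' i j
  have f2 : Ph e (n i j * n i j) = n i j * n i j :=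
    fix_of_two he hs _ (Ph_two he hn h0 h0' i j i j)
  -- the sum of squares of commutators vanishes
  set N := n i j with hN
  have hsum : ∑ k, ∑ l, (N * e k l - e k l * N) * (e k l * N - N * e k l) = 0 := by
    have hexp : ∀ k l, (N * e k l - e k l * N) * (e k l * N - N * e k l)
        = N * (e k l * e k l) * N - N * (e k l * N * e k l) - (e k l * N * e k l) * N
          + e k l * (N * N) * e k l := by
      intro k l; noncomm_ring
    simp only [hexp, Finset.sum_add_distrib, Finset.sum_sub_distrib]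
    have a1 : ∑ k, ∑ l, N * (e k l * e k l) * N = N * N := by
      simp only [← Finset.sum_mul, ← Finset.mul_sum, he.sq, mul_one]
    have a2 : ∑ k, ∑ l, N * (e k l * N * e k l) = N * N := by
      simp only [← Finset.mul_sum]
      rw [show ∑ k, ∑ l, e k l * N * e k l = Ph e N from rfl, f1]
    have a3 : ∑ k, ∑ l, (e k l * N * e k l) * N = N * N := by
      simp only [← Finset.sum_mul]
      rw [show ∑ k, ∑ l, e k l * N * e k l = Ph e N from rfl, f1]
    have a4 : ∑ k, ∑ l, e k l * (N * N) * e k l = N * N := f2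
    rw [a1, a2, a3, a4]
    abel
  have hpos : ∀ ξ : H, ∑ k, ∑ l, ‖(e k l * N - N * e k l) ξ‖ ^ 2 = 0 := by
    intro ξ
    have h1 : ∀ k l, (‖(e k l * N - N * e k l) ξ‖ ^ 2 : ℝ)
        = (inner ℂ (((N * e k l - e k l * N) * (e k l * N - N * e k l)) ξ) ξ : ℂ).re := by
      intro k l
      have ha : adjoint (e k l * N - N * e k l) = N * e k l - e k l * N := by
        rw [map_sub, show adjoint (e k l * N) = adjoint N * adjoint (e k l) from adjoint_comp _ _,
          show adjoint (N * e k l) = adjoint (e k l) * adjoint N from adjoint_comp _ _, hs, hN, hs']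
      rw [← ha, ContinuousLinearMap.mul_apply, adjoint_inner_left, inner_self_eq_norm_sq_to_K]
      norm_cast
    simp only [h1, ← Complex.re_sum, ← sum_inner]
    have h2 : ∑ k, ∑ l, (((N * e k l - e k l * N) * (e k l * N - N * e k l)) ξ) = 0 := by
      have := congrArg (fun T : H →L[ℂ] H => T ξ) hsum
      simpa [ContinuousLinearMap.sum_apply] using this
    rw [h2]
    simp
  have hz : e k l * N - N * e k l = 0 := by
    ext ξ
    have h1 := hpos ξ
    rw [Finset.sum_eq_zero_iff_of_nonneg fun k _ => Finset.sum_nonneg fun l _ => sq_nonneg _] at h1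
    have h2 := h1 k (Finset.mem_univ _)
    rw [Finset.sum_eq_zero_iff_of_nonneg fun l _ => sq_nonneg _] at h2
    have h3 := h2 l (Finset.mem_univ _)
    have h4 : ‖(e k l * N - N * e k l) ξ‖ = 0 := by
      exact pow_eq_zero_iff (two_ne_zero) |>.mp h3
    exact norm_eq_zero.mp h4
  exact sub_eq_zero.mp hz

end Op

end Vale.Agent.P092.H407
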