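import Vale.Agent.P092.H407.SynP

/-!
P092, Team D, block [D-SYN-P] (helper407): the partition of unity in the letters of helper613.
-/

namespace Vale.Agent.P092.H407

open Vale.Agent.P092.H820
open scoped LinearAlgebra.Projectivization Matrix

open Classical in
/-- the literal form of helper613 (all fields of his structure) -/
theorem cov {ε : ℝ} (hε : 0 < ε) :
    ∃ r : ℝ, 0 < r ∧ r < ε ∧ ∃ (ι : Type) (_ : Fintype ι) (χ : ι → C(ℙ ℝ (Fin 3 → ℝ), ℝ))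
      (p : ι → Fin 3 → ℝ),
      (∀ a, ∑ i, p a i ^ 2 = 1) ∧ (∀ x, ∑ a, χ a x ^ 2 = 1) ∧
      (∀ a (v : Fin 3 → ℝ) (hv : v ≠ 0), ∑ i, v i ^ 2 = 1 →
        χ a (Projectivization.mk ℝ v hv) ≠ 0 →
        ∃ s : ℝ, (s = 1 ∨ s = -1) ∧ ∑ i, (v i - s * p a i) ^ 2 ≤ r ^ 2) ∧
      ∀ n : Fin 3 → ℝ, ∑ i, n i ^ 2 = 1 →
        ((Finset.univ.filter fun a => (∑ i, p a i * n i) ^ 2 ≤ 16 * r ^ 2).card : ℝ) * r ^ 2 ≤ ε := by
  obtain ⟨r, hr, hrε, I, hI, χ, u, h1, h2, h3, h4⟩ := syn_part hε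
  have hd : ∀ x y : Fin 3 → ℝ, x ⬝ᵥ y = ∑ i, x i * y i := fun _ _ => rfl
  refine ⟨r, hr, hrε, I, hI, χ, u, fun a => ?_, h2, fun a v hv hv1 hx => ?_, fun n hn => ?_⟩
  · have := h1 a
    rw [hd] at this
    simpa only [sq] using this
  · have hvv : v ⬝ᵥ v = 1 := by rw [hd]; simpa only [sq] using hv1
    have hh := h3 a v hv hvv hx
    have hua := h1 a
    obtain ⟨s, hs, hsv⟩ : ∃ s : ℝ, (s = 1 ∨ s = -1) ∧ s * (v ⬝ᵥ u a) = |v ⬝ᵥ u a| := by
      rcases abs_choice (v ⬝ᵥ u a) with h | h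
      · exact ⟨1, Or.inl rfl, by rw [h, one_mul]⟩
      · exact ⟨-1, Or.inr rfl, by rw [h, neg_one_mul]⟩
    refine ⟨s, hs, ?_⟩
    have hs2 : s * s = 1 := by rcases hs with rfl | rfl <;> norm_num
    have e : ∑ i, (v i - s * u a i) ^ 2 =
        v ⬝ᵥ v - 2 * (s * (v ⬝ᵥ u a)) + (s * s) * (u a ⬝ᵥ u a) := by
      simp only [dotProduct, Fin.sum_univ_three]
      ring
    rw [e, hvv, hua, hs2, hsv]
    linarith
  · have hnn : n ⬝ᵥ n = 1 := by rw [hd]; simpa only [sq] using hn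
    refine le_trans ?_ (h4 n hnn)
    refine mul_le_mul_of_nonneg_right ?_ (sq_nonneg _)
    have : (Finset.univ.filter fun a => (∑ i, u a i * n i) ^ 2 ≤ 16 * r ^ 2) ⊆
        (Finset.univ.filter fun a => |u a ⬝ᵥ n| ≤ 4 * r) := by
      intro a ha
      rw [Finset.mem_filter] at ha ⊢
      refine ⟨ha.1, ?_⟩
      have h5 : (u a ⬝ᵥ n) ^ 2 ≤ (4 * r) ^ 2 := by
        rw [hd]
        linarith [ha.2, show (4 * r) ^ 2 = 16 * r ^ 2 by ring]
      exact abs_le_of_sq_le_sq h5 (by positivity)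
    exact_mod_cast Finset.card_le_card this

end Vale.Agent.P092.H407
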