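import Vale.Agent.P092.H820.Pn

/-!
P092, Team D, block [D-SYN-P] (helper407): a partition of unity of the real projective plane
of mesh `r` with at most `C / r` members near any line.
-/

namespace Vale.Agent.P092.H407

open Vale.Agent.P092.H820
open scoped LinearAlgebra.Projectivization Matrix

/-- the clamp to the unit interval -/
noncomputable def cl (t : ℝ) : ℝ := max 0 (min 1 t)

/-- the tent function -/
noncomputable def tent (t : ℝ) : ℝ := cl (t + 1) - cl t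

lemma cl_cont : Continuous cl := by unfold cl; fun_prop

lemma tent_cont : Continuous tent := by
  unfold tent
  exact (cl_cont.comp (continuous_id.add continuous_const)).sub cl_cont

lemma cl_mono {s t : ℝ} (h : s ≤ t) : cl s ≤ cl t := by
  unfold cl
  exact max_le_max le_rfl (min_le_min le_rfl h)

lemma tent_nonneg (t : ℝ) : 0 ≤ tent t := sub_nonneg.2 (cl_mono (by linarith))

lemma cl_one {t : ℝ} (h : 1 ≤ t) : cl t = 1 := by
  unfold cl
  rw [min_eq_left h]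
  norm_num

lemma cl_zero {t : ℝ} (h : t ≤ 0) : cl t = 0 := by
  unfold cl
  rw [min_eq_right (by linarith), max_eq_left h]

lemma tent_ne {t : ℝ} (h : tent t ≠ 0) : |t| < 1 := by
  by_contra hc
  push Not at hc
  apply h
  unfold tent
  rcases le_abs'.1 hc with h1 | h1
  · rw [cl_zero (by linarith), cl_zero (by linarith), sub_zero]
  · rw [cl_one (by linarith), cl_one (by linarith), sub_self]

lemma tent_sum (N : ℕ) {s : ℝ} (h0 : 0 ≤ s) (h1 : s ≤ 2 * N) :
    ∑ i : Fin (2 * N + 1), tent (s - (i : ℕ)) = 1 := by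
  rw [Fin.sum_univ_eq_sum_range (fun i : ℕ => tent (s - i)) (2 * N + 1)]
  have : ∀ i : ℕ, tent (s - i) = (fun i : ℕ => cl (s - i + 1)) i - (fun i : ℕ => cl (s - i + 1)) (i + 1) := by
    intro i
    simp only [tent]
    congr 2
    push_cast
    ring
  simp_rw [this]
  rw [Finset.sum_range_sub']
  rw [cl_one (by push_cast; linarith), cl_zero (by push_cast; linarith), sub_zero]

/-- the index set of the grid -/
abbrev J (N : ℕ) : Type := Fin 3 → Fin (2 * N + 1)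

/-- the grid points, as integer vectors in the cube of size `N` -/
def gp {N : ℕ} (i : J N) : Fin 3 → ℤ := fun j => ((i j : ℕ) : ℤ) - N

/-- the product of tents -/
noncomputable def Phi (N : ℕ) (i : J N) (x : Fin 3 → ℝ) : ℝ :=
  ∏ j, tent (N * x j + N - ((i j : ℕ) : ℝ))

lemma Phi_cont (N : ℕ) (i : J N) : Continuous (Phi N i) := by
  unfold Phi
  refine continuous_finsetProd _ fun j _ => tent_cont.comp ?_
  fun_prop

lemma Phi_nonneg (N : ℕ) (i : J N) (x : Fin 3 → ℝ) : 0 ≤ Phi N i x :=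
  Finset.prod_nonneg fun _ _ => tent_nonneg _

lemma Phi_sum (N : ℕ) {x : Fin 3 → ℝ} (hx : ∀ j, |x j| ≤ 1) : ∑ i : J N, Phi N i x = 1 := by
  have h := Finset.prod_univ_sum (fun _ : Fin 3 => (Finset.univ : Finset (Fin (2 * N + 1))))
    (fun j i => tent (N * x j + N - ((i : ℕ) : ℝ)))
  rw [Fintype.piFinset_univ] at h
  unfold Phi
  rw [← h]
  refine Finset.prod_eq_one fun j _ => ?_
  have h1 := abs_le.1 (hx j)
  have hN : (0 : ℝ) ≤ N := Nat.cast_nonneg N
  refine tent_sum N ?_ ?_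
  · nlinarith [h1.1]
  · nlinarith [h1.2]

lemma Phi_ne (N : ℕ) {i : J N} {x : Fin 3 → ℝ} (h : Phi N i x ≠ 0) (j : Fin 3) :
    |N * x j - gp i j| < 1 := by
  have h1 := tent_ne (Finset.prod_ne_zero_iff.1 h j (Finset.mem_univ j))
  have : (N : ℝ) * x j - gp i j = N * x j + N - ((i j : ℕ) : ℝ) := by
    simp only [gp]
    push_cast
    ring
  rwa [this]

/-- the even version -/
noncomputable def Psi (N : ℕ) (i : J N) (x : Fin 3 → ℝ) : ℝ := Real.sqrt ((Phi N i x + Phi N i (-x)) / 2)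

lemma Psi_cont (N : ℕ) (i : J N) : Continuous (Psi N i) := by
  unfold Psi
  have h1 := Phi_cont N i
  have h2 := (Phi_cont N i).comp (continuous_neg (G := Fin 3 → ℝ))
  exact ((h1.add h2).div_const 2).sqrt

lemma Psi_even (N : ℕ) (i : J N) (x : Fin 3 → ℝ) : Psi N i (-x) = Psi N i x := by
  unfold Psi
  rw [neg_neg, add_comm]

lemma Psi_sq (N : ℕ) (i : J N) (x : Fin 3 → ℝ) :
    Psi N i x ^ 2 = (Phi N i x + Phi N i (-x)) / 2 := by
  unfold Psi
  exact Real.sq_sqrt (div_nonneg (add_nonneg (Phi_nonneg _ _ _) (Phi_nonneg _ _ _)) (by norm_num))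

lemma Psi_sum (N : ℕ) {x : Fin 3 → ℝ} (hx : ∀ j, |x j| ≤ 1) : ∑ i : J N, Psi N i x ^ 2 = 1 := by
  simp_rw [Psi_sq]
  rw [← Finset.sum_div, Finset.sum_add_distrib, Phi_sum N hx, Phi_sum N (by simpa using hx)]
  norm_num

lemma Psi_ne (N : ℕ) {i : J N} {x : Fin 3 → ℝ} (h : Psi N i x ≠ 0) :
    (∀ j, |N * x j - gp i j| < 1) ∨ (∀ j, |N * x j + gp i j| < 1) := by
  by_cases h1 : Phi N i x = 0
  · by_cases h2 : Phi N i (-x) = 0
    · exfalso
      apply h
      unfold Psi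
      rw [h1, h2]
      simp
    · right
      intro j
      have := Phi_ne N h2 j
      rw [← abs_neg]
      convert this using 2
      simp only [Pi.neg_apply]
      ring
  · exact Or.inl (Phi_ne N h1)

section Lift

/-- a continuous even function on `ℝ³` gives a continuous function on the projective plane,
through the representatives of maximum norm one -/
noncomputable def lift0 (F : (Fin 3 → ℝ) → ℝ) (hc : Continuous F) (he : ∀ x, F (-x) = F x) :
    C(ℙ ℝ (Fin 3 → ℝ), ℝ) where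
  toFun := Projectivization.lift (fun v : {v : Fin 3 → ℝ // v ≠ 0} => F (‖v.1‖⁻¹ • v.1)) (by
    rintro ⟨a, ha⟩ ⟨b, hb⟩ t h
    simp only at h ⊢
    have ht : t ≠ 0 := by
      rintro rfl
      exact ha (by rw [h, zero_smul])
    have : ‖a‖⁻¹ • a = (|t|⁻¹ * t) • (‖b‖⁻¹ • b) := by
      rw [h, norm_smul, Real.norm_eq_abs, mul_inv, smul_smul, smul_smul]
      congr 1
      ring
    rw [this]
    rcases lt_or_gt_of_ne ht with h1 | h1
    · rw [abs_of_neg h1]
      have : (-t)⁻¹ * t = -1 := by field_simp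
      rw [this, neg_one_smul, he]
    · rw [abs_of_pos h1, inv_mul_cancel₀ ht, one_smul])
  continuous_toFun := by
    have hq : Topology.IsQuotientMap (pj ℝ (Fin 3)) := pj_oq.isQuotientMap
    rw [hq.continuous_iff]
    have : Continuous fun v : {v : Fin 3 → ℝ // v ≠ 0} => F (‖v.1‖⁻¹ • v.1) := by
      have h1 : Continuous fun v : {v : Fin 3 → ℝ // v ≠ 0} => ‖v.1‖⁻¹ :=
        (continuous_subtype_val.norm).inv₀ fun v => norm_ne_zero_iff.2 v.2
      have h2 : Continuous fun v : {v : Fin 3 → ℝ // v ≠ 0} => ‖v.1‖⁻¹ • v.1 :=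
        h1.smul continuous_subtype_val
      exact hc.comp h2
    exact this

lemma lift0_pj (F : (Fin 3 → ℝ) → ℝ) (hc : Continuous F) (he : ∀ x, F (-x) = F x)
    (v : {v : Fin 3 → ℝ // v ≠ 0}) : lift0 F hc he (pj ℝ (Fin 3) v) = F (‖v.1‖⁻¹ • v.1) := rfl

end Lift

/-- the boundary part of the grid -/
abbrev I0 (N : ℕ) : Type := {i : J N // ∃ j, |gp i j| = N}

/-- the members of the partition -/
noncomputable def chi (N : ℕ) (i : J N) : C(ℙ ℝ (Fin 3 → ℝ), ℝ) :=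
  lift0 (Psi N i) (Psi_cont N i) (Psi_even N i)

lemma abs_gp_le {N : ℕ} (i : J N) (j : Fin 3) : |gp i j| ≤ N := by
  have := (i j).2
  simp only [gp]
  rw [abs_le]
  constructor <;> omega

lemma chi_sum (N : ℕ) (x : ℙ ℝ (Fin 3 → ℝ)) : ∑ i : I0 N, chi N i.1 x ^ 2 = 1 := by
  classical
  obtain ⟨v, rfl⟩ := pj_surj x
  have hv : 0 < ‖v.1‖ := norm_pos_iff.2 v.2
  set w : Fin 3 → ℝ := ‖v.1‖⁻¹ • v.1 with hw
  have hwn : ‖w‖ = 1 := by
    rw [hw, norm_smul, norm_inv, norm_norm, inv_mul_cancel₀ hv.ne']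
  have hwj : ∀ j, |w j| ≤ 1 := fun j => by
    have := norm_le_pi_norm w j
    rwa [hwn] at this
  have h1 : ∀ i : J N, chi N i (pj ℝ (Fin 3) v) = Psi N i w := fun i => rfl
  simp_rw [h1]
  rw [← Psi_sum N hwj]
  rw [← Finset.sum_subtype (Finset.univ.filter fun i : J N => ∃ j, |gp i j| = N) (by simp)
    (fun i => Psi N i w ^ 2)]
  refine Finset.sum_filter_of_ne fun i _ hi => ?_
  have hi' : Psi N i w ≠ 0 := fun h => hi (by rw [h]; norm_num)
  obtain ⟨j, hj⟩ : ∃ j, |w j| = 1 := by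
    obtain ⟨j, hj⟩ := Finite.exists_max fun j => ‖w j‖
    refine ⟨j, le_antisymm (hwj j) ?_⟩
    rw [← hwn]
    exact (pi_norm_le_iff_of_nonneg (abs_nonneg _)).2 hj
  refine ⟨j, le_antisymm (abs_gp_le i j) ?_⟩
  have hN : (0 : ℝ) ≤ N := Nat.cast_nonneg N
  have key : (N : ℝ) < |(gp i j : ℝ)| + 1 := by
    have e : |(N : ℝ) * w j| = N := by rw [abs_mul, hj, mul_one, abs_of_nonneg hN]
    rcases Psi_ne N hi' with h | h
    · have h1 := h j
      have h2 := abs_sub_abs_le_abs_sub ((N : ℝ) * w j) (gp i j)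
      rw [e] at h2
      linarith
    · have h1 := h j
      have h2 := abs_sub_abs_le_abs_sub ((N : ℝ) * w j) (-(gp i j : ℝ))
      rw [e, abs_neg, sub_neg_eq_add] at h2
      linarith
  have : (N : ℤ) < |gp i j| + 1 := by
    have := key
    rw [← Int.cast_abs] at this
    exact_mod_cast this
  omega

/-- the Euclidean length of a grid point -/
noncomputable def len {N : ℕ} (i : J N) : ℝ := Real.sqrt (∑ j, (gp i j : ℝ) ^ 2)

/-- the unit representatives -/
noncomputable def rep {N : ℕ} (i : J N) : Fin 3 → ℝ := fun j => (gp i j : ℝ) / len i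

lemma len_sq {N : ℕ} (i : J N) : len i ^ 2 = ∑ j, (gp i j : ℝ) ^ 2 :=
  Real.sq_sqrt (Finset.sum_nonneg fun _ _ => sq_nonneg _)

lemma le_len {N : ℕ} (i : I0 N) : (N : ℝ) ≤ len i.1 := by
  obtain ⟨j, hj⟩ := i.2
  refine Real.le_sqrt_of_sq_le ?_
  have h1 : (gp i.1 j : ℝ) ^ 2 = (N : ℝ) ^ 2 := by
    rw [← sq_abs, ← Int.cast_abs, hj]
    norm_cast
  rw [← h1]
  exact Finset.single_le_sum (f := fun j => (gp i.1 j : ℝ) ^ 2) (fun _ _ => sq_nonneg _)
    (Finset.mem_univ j)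

lemma len_le {N : ℕ} (i : J N) : len i ≤ 2 * N := by
  refine Real.sqrt_le_iff.2 ⟨by positivity, ?_⟩
  have h1 : ∀ j, (gp i j : ℝ) ^ 2 ≤ (N : ℝ) ^ 2 := by
    intro j
    rw [← sq_abs, ← Int.cast_abs]
    have := abs_gp_le i j
    have h2 : ((|gp i j| : ℤ) : ℝ) ≤ N := by exact_mod_cast this
    have h3 : (0 : ℝ) ≤ ((|gp i j| : ℤ) : ℝ) := by positivity
    nlinarith
  calc ∑ j, (gp i j : ℝ) ^ 2 ≤ ∑ j : Fin 3, (N : ℝ) ^ 2 := Finset.sum_le_sum fun j _ => h1 j
    _ = 3 * (N : ℝ) ^ 2 := by simp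
    _ ≤ (2 * N) ^ 2 := by nlinarith [sq_nonneg (N : ℝ)]

lemma rep_unit {N : ℕ} (hN : 0 < N) (i : I0 N) : rep i.1 ⬝ᵥ rep i.1 = 1 := by
  have h0 : (0 : ℝ) < len i.1 := lt_of_lt_of_le (by exact_mod_cast hN) (le_len i)
  have h1 := len_sq i.1
  unfold rep dotProduct
  have : ∀ j, (gp i.1 j : ℝ) / len i.1 * ((gp i.1 j : ℝ) / len i.1) =
      (gp i.1 j : ℝ) ^ 2 / len i.1 ^ 2 := fun j => by
    field_simp
  simp_rw [this]
  rw [← Finset.sum_div, ← h1, div_self (by positivity)]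

lemma near {N : ℕ} (hN : 0 < N) (i : I0 N) (v : Fin 3 → ℝ) (hv : v ⬝ᵥ v = 1) (hv0 : v ≠ 0)
    (h : chi N i.1 (pj ℝ (Fin 3) ⟨v, hv0⟩) ≠ 0) :
    1 - (3 / 2) / (N : ℝ) ^ 2 ≤ |v ⬝ᵥ rep i.1| := by
  have hNr : (0 : ℝ) < N := by exact_mod_cast hN
  have hlen := le_len i
  have h0 : (0 : ℝ) < len i.1 := lt_of_lt_of_le hNr hlen
  have hvn : 0 < ‖v‖ := norm_pos_iff.2 hv0
  have hv1 : ‖v‖ ≤ 1 := by
    refine (pi_norm_le_iff_of_nonneg zero_le_one).2 fun j => ?_
    have h1 : v j * v j ≤ v ⬝ᵥ v :=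
      Finset.single_le_sum (f := fun j => v j * v j) (fun _ _ => mul_self_nonneg _)
        (Finset.mem_univ j)
    rw [hv] at h1
    rw [Real.norm_eq_abs]
    exact abs_le_one_iff_mul_self_le_one.2 h1
  set α : ℝ := N / ‖v‖ with hα
  have hαN : (N : ℝ) ≤ α := by
    rw [hα, le_div_iff₀ hvn]
    nlinarith
  set β : ℝ := len i.1 with hβ
  have hu := rep_unit hN i
  set u : Fin 3 → ℝ := rep i.1 with hudef
  have hg : ∀ j, (gp i.1 j : ℝ) = β * u j := fun j => by
    rw [hudef, rep, ← hβ]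
    field_simp
  have hw : ∀ j, (N : ℝ) * (‖v‖⁻¹ • v) j = α * v j := fun j => by
    rw [Pi.smul_apply, smul_eq_mul, hα]
    field_simp
  have hvs : v 0 * v 0 + v 1 * v 1 + v 2 * v 2 = 1 := by
    rw [← hv]; simp [dotProduct, Fin.sum_univ_three]
  have hus : u 0 * u 0 + u 1 * u 1 + u 2 * u 2 = 1 := by
    rw [← hu]; simp [dotProduct, Fin.sum_univ_three]
  have hd : v ⬝ᵥ u = v 0 * u 0 + v 1 * u 1 + v 2 * u 2 := by
    simp [dotProduct, Fin.sum_univ_three]
  have fin : ∀ s : ℝ, s = 1 ∨ s = -1 → (∀ j, |α * v j - s * (β * u j)| < 1) →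
      1 - (3 / 2) / (N : ℝ) ^ 2 ≤ |v ⬝ᵥ u| := by
    intro s hs hj
    have hs2 : s * s = 1 := by rcases hs with rfl | rfl <;> norm_num
    have hq : ∀ j, (α * v j - s * (β * u j)) ^ 2 ≤ 1 := fun j => by
      have := (hj j).le
      rw [← sq_abs]
      have h0 := abs_nonneg (α * v j - s * (β * u j))
      nlinarith
    have hsum : (α - β) ^ 2 + 2 * (α * β) * (1 - s * (v ⬝ᵥ u)) ≤ 3 := by
      have h1 := hq 0
      have h2 := hq 1
      have h3 := hq 2
      have e : (α - β) ^ 2 + 2 * (α * β) * (1 - s * (v ⬝ᵥ u)) =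
          (α * v 0 - s * (β * u 0)) ^ 2 + (α * v 1 - s * (β * u 1)) ^ 2 +
            (α * v 2 - s * (β * u 2)) ^ 2 := by
        rw [hd]
        linear_combination (-α ^ 2) * hvs - (s * s * β ^ 2) * hus - β ^ 2 * hs2
      rw [e]
      linarith
    have hle : s * (v ⬝ᵥ u) ≤ |v ⬝ᵥ u| := by
      rcases hs with rfl | rfl
      · rw [one_mul]; exact le_abs_self _
      · rw [neg_one_mul]; exact neg_le_abs _
    refine le_trans ?_ hle
    by_contra hc
    push Not at hc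
    have h1 : (3 / 2) / (N : ℝ) ^ 2 < 1 - s * (v ⬝ᵥ u) := by linarith
    have h2 : (3 / 2 : ℝ) < (1 - s * (v ⬝ᵥ u)) * (N : ℝ) ^ 2 := by
      rwa [div_lt_iff₀ (by positivity)] at h1
    have h3 : (N : ℝ) ^ 2 ≤ α * β := by nlinarith
    have h4 : 0 < 1 - s * (v ⬝ᵥ u) := lt_trans (by positivity) h1
    have h5 : (1 - s * (v ⬝ᵥ u)) * (N : ℝ) ^ 2 ≤ (1 - s * (v ⬝ᵥ u)) * (α * β) :=
      mul_le_mul_of_nonneg_left h3 h4.le
    nlinarith [sq_nonneg (α - β)]
  have h' : Psi N i.1 (‖v‖⁻¹ • v) ≠ 0 := h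
  rcases Psi_ne N h' with h1 | h1
  · refine fin 1 (Or.inl rfl) fun j => ?_
    have := h1 j
    rwa [hw, hg, ← one_mul (β * u j)] at this
  · refine fin (-1) (Or.inr rfl) fun j => ?_
    have := h1 j
    rw [hw, hg] at this
    rwa [neg_one_mul, sub_neg_eq_add]

lemma third : ∀ j k i : Fin 3, j ≠ k → i = j ∨ i = k ∨ i = -(j + k) := by decide

lemma univ3 : ∀ j k : Fin 3, j ≠ k →
    (Finset.univ : Finset (Fin 3)) = {j, k, -(j + k)} ∧ j ≠ -(j + k) ∧ k ≠ -(j + k) := by decide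

lemma big_coord {N : ℕ} (hN : 64 < N) (n : Fin 3 → ℝ) (hn : n ⬝ᵥ n = 1) (i : J N) (j : Fin 3)
    (hj : |gp i j| = N) (h : |∑ k, (gp i k : ℝ) * n k| ≤ 16) : ∃ k, j ≠ k ∧ 1 / 8 ≤ |n k| := by
  by_contra hc
  push Not at hc
  have hNr : (64 : ℝ) < N := by exact_mod_cast hN
  have hns : n 0 * n 0 + n 1 * n 1 + n 2 * n 2 = 1 := by
    rw [← hn]; simp [dotProduct, Fin.sum_univ_three]
  have hg : ∀ k, |(gp i k : ℝ)| ≤ N := fun k => by
    rw [← Int.cast_abs]
    have := abs_gp_le i k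
    exact_mod_cast this
  have hjr : |(gp i j : ℝ)| = N := by
    rw [← Int.cast_abs, hj]
    norm_cast
  have hsm : ∀ k, j ≠ k → |(gp i k : ℝ) * n k| ≤ N * (1 / 8) := fun k hk => by
    rw [abs_mul]
    exact mul_le_mul (hg k) (hc k hk).le (abs_nonneg _) (by positivity)
  have hsq : ∀ k, j ≠ k → n k * n k ≤ 1 / 64 := fun k hk => by
    have h1 := abs_lt.1 (hc k hk)
    nlinarith [h1.1, h1.2]
  have main : ∀ a b c : Fin 3, j = a → j ≠ b → j ≠ c →
      n a * n a + n b * n b + n c * n c = 1 →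
      ∑ k, (gp i k : ℝ) * n k = gp i a * n a + gp i b * n b + gp i c * n c → False := by
    intro a b c ha hb hcc h1 h2
    subst ha
    have h3 := hsq b hb
    have h4 := hsq c hcc
    have h5 : 1 / 2 ≤ |n j| := by
      by_contra h6
      push Not at h6
      have h7 := abs_lt.1 h6
      nlinarith [h7.1, h7.2]
    have h6 : (N : ℝ) * (1 / 2) ≤ |(gp i j : ℝ) * n j| := by
      rw [abs_mul, hjr]
      exact mul_le_mul_of_nonneg_left h5 (by positivity)
    have h7 := hsm b hb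
    have h8 := hsm c hcc
    rw [h2] at h
    have h9 : |(gp i j : ℝ) * n j| ≤ |(gp i j : ℝ) * n j + gp i b * n b + gp i c * n c| +
        |(gp i b : ℝ) * n b| + |(gp i c : ℝ) * n c| := by
      have e : (gp i j : ℝ) * n j = ((gp i j : ℝ) * n j + gp i b * n b + gp i c * n c) +
          (-((gp i b : ℝ) * n b)) + (-((gp i c : ℝ) * n c)) := by ring
      calc |(gp i j : ℝ) * n j| = |((gp i j : ℝ) * n j + gp i b * n b + gp i c * n c) +
          (-((gp i b : ℝ) * n b)) + (-((gp i c : ℝ) * n c))| := by rw [← e]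
        _ ≤ _ := by
          refine (abs_add_le _ _).trans ?_
          rw [abs_neg]
          refine add_le_add ((abs_add_le _ _).trans ?_) le_rfl
          rw [abs_neg]
    linarith
  have hs3 : ∑ k, (gp i k : ℝ) * n k = gp i 0 * n 0 + gp i 1 * n 1 + gp i 2 * n 2 := by
    rw [Fin.sum_univ_three]
  fin_cases j
  · exact main 0 1 2 rfl (by decide) (by decide) hns hs3
  · exact main 1 0 2 rfl (by decide) (by decide) (by linarith) (by rw [hs3]; ring)
  · exact main 2 0 1 rfl (by decide) (by decide) (by linarith) (by rw [hs3]; ring)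

open Classical in
lemma count {N : ℕ} (hN : 64 < N) (n : Fin 3 → ℝ) (hn : n ⬝ᵥ n = 1) :
    (Finset.univ.filter fun i : I0 N => |∑ k, (gp i.1 k : ℝ) * n k| ≤ 16).card ≤
      4626 * (2 * N + 1) := by
  set S := Finset.univ.filter fun i : I0 N => |∑ k, (gp i.1 k : ℝ) * n k| ≤ 16 with hS
  have hex : ∀ i : I0 N, ∃ p : Fin 3 × Fin 3, i ∈ S → |gp i.1 p.1| = N ∧ p.1 ≠ p.2 ∧
      1 / 8 ≤ |n p.2| := by
    intro i
    by_cases hi : i ∈ S
    · obtain ⟨j, hj⟩ := i.2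
      obtain ⟨k, hk⟩ := big_coord hN n hn i.1 j hj (Finset.mem_filter.1 hi).2
      exact ⟨(j, k), fun _ => ⟨hj, hk⟩⟩
    · exact ⟨(0, 0), fun h => absurd h hi⟩
  choose p hp using hex
  let f : I0 N → (Fin 3 × Bool × Fin 3 × Fin (2 * N + 1) × Fin 257) := fun i =>
    ((p i).1, decide (0 ≤ gp i.1 (p i).1), (p i).2, i.1 (-((p i).1 + (p i).2)),
      ⟨((i.1 (p i).2 : ℕ)) % 257, Nat.mod_lt _ (by norm_num)⟩)
  have hcard : (Finset.univ : Finset (Fin 3 × Bool × Fin 3 × Fin (2 * N + 1) × Fin 257)).card =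
      4626 * (2 * N + 1) := by
    simp only [Finset.card_univ, Fintype.card_prod, Fintype.card_fin, Fintype.card_bool]
    ring
  rw [← hcard]
  refine Finset.card_le_card_of_injOn f (fun _ _ => Finset.mem_coe.2 (Finset.mem_univ _)) ?_
  intro i hi i' hi' hff
  have hi := Finset.mem_coe.1 hi
  have hi' := Finset.mem_coe.1 hi'
  simp only [f, Prod.mk.injEq, Fin.mk.injEq] at hff
  obtain ⟨h1, h2, h3, h4, h5⟩ := hff
  obtain ⟨a1, a2, a3⟩ := hp i hi
  obtain ⟨b1, b2, b3⟩ := hp i' hi'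
  have c1 := (Finset.mem_filter.1 hi).2
  have c2 := (Finset.mem_filter.1 hi').2
  rw [← h1] at h2
  rw [← h1, ← h3] at h4
  rw [← h3] at h5
  rw [← h1] at b1
  set j := (p i).1 with hj
  set k := (p i).2 with hk
  -- the coordinate j
  have e1 : gp i.1 j = gp i'.1 j := by
    have h2' : (0 ≤ gp i.1 j) ↔ (0 ≤ gp i'.1 j) := by
      simpa using h2
    rcases le_or_gt 0 (gp i.1 j) with h | h
    · have h' := h2'.1 h
      rw [abs_of_nonneg h] at a1
      rw [abs_of_nonneg h'] at b1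
      rw [a1, b1]
    · have h' : gp i'.1 j < 0 := by
        by_contra hc
        push Not at hc
        exact absurd (h2'.2 hc) (not_le.2 h)
      rw [abs_of_neg h] at a1
      rw [abs_of_neg h'] at b1
      omega
  have e2 : gp i.1 (-(j + k)) = gp i'.1 (-(j + k)) := by
    simp only [gp, h4]
  have esum : ∀ q : J N, ∑ l, (gp q l : ℝ) * n l =
      gp q j * n j + gp q k * n k + gp q (-(j + k)) * n (-(j + k)) := by
    intro q
    obtain ⟨d1, d2, d3⟩ := univ3 j k a2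
    rw [d1, Finset.sum_insert (by simp only [Finset.mem_insert, Finset.mem_singleton]; tauto),
      Finset.sum_insert (by simpa using d3), Finset.sum_singleton]
    ring
  rw [esum] at c1 c2
  have e3 : |((gp i.1 k : ℝ) - gp i'.1 k) * n k| ≤ 32 := by
    have e : ((gp i.1 k : ℝ) - gp i'.1 k) * n k =
        (gp i.1 j * n j + gp i.1 k * n k + gp i.1 (-(j + k)) * n (-(j + k))) -
        (gp i'.1 j * n j + gp i'.1 k * n k + gp i'.1 (-(j + k)) * n (-(j + k))) := by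
      rw [e1, e2]; ring
    rw [e]
    refine (abs_sub _ _).trans ?_
    linarith
  have e4 : |(gp i.1 k : ℝ) - gp i'.1 k| ≤ 256 := by
    rw [abs_mul] at e3
    by_contra hc
    push Not at hc
    have : 256 * (1 / 8) < |(gp i.1 k : ℝ) - gp i'.1 k| * |n k| :=
      mul_lt_mul hc a3 (by norm_num) (abs_nonneg _)
    linarith
  have e5 : |gp i.1 k - gp i'.1 k| ≤ 256 := by
    have : ((|gp i.1 k - gp i'.1 k| : ℤ) : ℝ) ≤ 256 := by
      rw [Int.cast_abs]; push_cast; exact e4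
    exact_mod_cast this
  have e6 : i.1 k = i'.1 k := by
    apply Fin.ext
    simp only [gp] at e5
    rw [abs_le] at e5
    omega
  apply Subtype.ext
  funext l
  rcases third j k l a2 with rfl | rfl | rfl
  · apply Fin.ext
    simp only [gp] at e1
    omega
  · exact e6
  · exact h4

open Classical in
/-- **[D-SYN-P]**: for every `ε` there are `r < ε` and a finite family `χ a` of continuous
functions on the projective plane with `∑ χ a ^ 2 = 1`, with unit representatives `u a` such that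
the support of `χ a` is in the `r`-ball of `u a`, and with at most `ε / r ^ 2` indices `a` such that
`u a` is in the `4 r`-neighbourhood of a given line. -/
theorem syn_part {ε : ℝ} (hε : 0 < ε) :
    ∃ r : ℝ, 0 < r ∧ r < ε ∧ ∃ (I : Type) (_ : Fintype I) (χ : I → C(ℙ ℝ (Fin 3 → ℝ), ℝ))
      (u : I → Fin 3 → ℝ),
      (∀ a, u a ⬝ᵥ u a = 1) ∧ (∀ x, ∑ a, χ a x ^ 2 = 1) ∧
      (∀ a (v : Fin 3 → ℝ) (hv : v ≠ 0), v ⬝ᵥ v = 1 → χ a (pj ℝ (Fin 3) ⟨v, hv⟩) ≠ 0 →
        1 - r ^ 2 / 2 ≤ |v ⬝ᵥ u a|) ∧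
      ∀ n : Fin 3 → ℝ, n ⬝ᵥ n = 1 →
        ((Finset.univ.filter fun a => |u a ⬝ᵥ n| ≤ 4 * r).card : ℝ) * r ^ 2 ≤ ε := by
  obtain ⟨N, hN⟩ := exists_nat_gt (max 64 (max (2 / ε) (55512 / ε)))
  have hN64 : (64 : ℝ) < N := (le_max_left _ _).trans_lt hN
  have hN2 : 2 / ε < N := (le_max_left _ _).trans_lt ((le_max_right _ _).trans_lt hN)
  have hNC : 55512 / ε < N := (le_max_right _ _).trans_lt ((le_max_right _ _).trans_lt hN)
  have hNn : 64 < N := by exact_mod_cast hN64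
  have hN0 : 0 < N := by omega
  have hNr : (0 : ℝ) < N := by linarith
  refine ⟨2 / N, by positivity, ?_, I0 N, inferInstance, fun a => chi N a.1, fun a => rep a.1,
    rep_unit hN0, chi_sum N, ?_, ?_⟩
  · rw [div_lt_iff₀ hNr]
    rw [div_lt_iff₀ hε] at hN2
    linarith
  · intro a v hv hv1 h
    refine le_trans ?_ (near hN0 a v hv1 hv h)
    rw [div_pow]
    have : (3 / 2 : ℝ) / (N : ℝ) ^ 2 ≤ 2 ^ 2 / (N : ℝ) ^ 2 / 2 := by
      have e : (2 : ℝ) ^ 2 / (N : ℝ) ^ 2 / 2 = 2 / (N : ℝ) ^ 2 := by ring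
      rw [e]
      exact div_le_div_of_nonneg_right (by norm_num) (by positivity)
    linarith
  · intro n hn
    have hsub : (Finset.univ.filter fun a : I0 N => |rep a.1 ⬝ᵥ n| ≤ 4 * (2 / (N : ℝ))).card ≤
        4626 * (2 * N + 1) := by
      refine le_trans (Finset.card_le_card fun a ha => ?_) (count hNn n hn)
      rw [Finset.mem_filter] at ha ⊢
      refine ⟨Finset.mem_univ _, ?_⟩
      have hl := le_len a
      have hl0 : 0 < len a.1 := lt_of_lt_of_le hNr hl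
      have e : ∑ k, (gp a.1 k : ℝ) * n k = len a.1 * (rep a.1 ⬝ᵥ n) := by
        rw [dotProduct, Finset.mul_sum]
        refine Finset.sum_congr rfl fun k _ => ?_
        rw [rep]
        field_simp
      rw [e, abs_mul, abs_of_pos hl0]
      have h2 := len_le a.1
      calc len a.1 * |rep a.1 ⬝ᵥ n| ≤ (2 * N) * (4 * (2 / (N : ℝ))) :=
            mul_le_mul h2 ha.2 (abs_nonneg _) (by positivity)
        _ = 16 := by field_simp; norm_num
    have h1 : ((Finset.univ.filter fun a : I0 N => |rep a.1 ⬝ᵥ n| ≤ 4 * (2 / (N : ℝ))).card : ℝ) ≤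
        4626 * (2 * N + 1) := by exact_mod_cast hsub
    have h3 : (4626 : ℝ) * (2 * N + 1) ≤ 13878 * N := by linarith
    have h4 : (2 / (N : ℝ)) ^ 2 = 4 / (N : ℝ) ^ 2 := by rw [div_pow]; norm_num
    calc _ ≤ (13878 * (N : ℝ)) * (2 / (N : ℝ)) ^ 2 :=
          mul_le_mul_of_nonneg_right (h1.trans h3) (by positivity)
      _ = 55512 / N := by rw [h4]; field_simp; norm_num
      _ ≤ ε := by
        rw [div_le_iff₀ hNr]
        rw [div_lt_iff₀ hε] at hNC
        linarith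

/-- coordinates: two unit vectors with `1 - r ^ 2 / 2 ≤ |⟨v, u⟩|` are `r`-close up to sign -/
lemma close_of {r : ℝ} (hr : 0 ≤ r) {v u : Fin 3 → ℝ} (hv : v ⬝ᵥ v = 1) (hu : u ⬝ᵥ u = 1)
    (h : 1 - r ^ 2 / 2 ≤ |v ⬝ᵥ u|) :
    ∃ s : ℝ, s * s = 1 ∧ (∀ j, |v j - s * u j| ≤ r) ∧
      ∀ n : Fin 3 → ℝ, n ⬝ᵥ n = 1 → |v ⬝ᵥ n - s * (u ⬝ᵥ n)| ≤ r := by
  obtain ⟨s, hs, hsv⟩ : ∃ s : ℝ, s * s = 1 ∧ s * (v ⬝ᵥ u) = |v ⬝ᵥ u| := by
    rcases abs_choice (v ⬝ᵥ u) with h | h
    · exact ⟨1, by norm_num, by rw [h, one_mul]⟩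
    · exact ⟨-1, by norm_num, by rw [h, neg_one_mul]⟩
  have hd : (v - s • u) ⬝ᵥ (v - s • u) ≤ r ^ 2 := by
    have e : (v - s • u) ⬝ᵥ (v - s • u) = v ⬝ᵥ v - 2 * (s * (v ⬝ᵥ u)) + (s * s) * (u ⬝ᵥ u) := by
      simp only [dotProduct, Fin.sum_univ_three, Pi.sub_apply, Pi.smul_apply, smul_eq_mul]
      ring
    rw [e, hv, hu, hs, hsv]
    linarith
  have hn : ∀ n : Fin 3 → ℝ, n ⬝ᵥ n = 1 → |v ⬝ᵥ n - s * (u ⬝ᵥ n)| ≤ r := by
    intro n hn
    have e : v ⬝ᵥ n - s * (u ⬝ᵥ n) = (v - s • u) ⬝ᵥ n := by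
      rw [sub_dotProduct, smul_dotProduct, smul_eq_mul]
    rw [e]
    refine abs_le_of_sq_le_sq ?_ hr
    refine le_trans ?_ hd
    have cs : ((v - s • u) ⬝ᵥ n) ^ 2 ≤ ((v - s • u) ⬝ᵥ (v - s • u)) * (n ⬝ᵥ n) := by
      have := Finset.sum_mul_sq_le_sq_mul_sq Finset.univ (v - s • u) n
      simpa only [dotProduct, sq] using this
    rwa [hn, mul_one] at cs
  refine ⟨s, hs, fun j => ?_, hn⟩
  have h1 : (v j - s * u j) ^ 2 ≤ (v - s • u) ⬝ᵥ (v - s • u) := by
    rw [sq]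
    exact Finset.single_le_sum (f := fun j => (v - s • u) j * (v - s • u) j)
      (fun _ _ => mul_self_nonneg _) (Finset.mem_univ j)
  exact abs_le_of_sq_le_sq (h1.trans hd) hr

end Vale.Agent.P092.H407
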